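import Mathlib
import Vale.Agent.P112.H22.Young

/-!
# [LB] Local weighted `L⁴` block inequality in one variable (P112, chapter G)

`block_le`: for `3ρ`-separated frequencies `s i`, `C¹` amplitudes `A i` with `|A i| ≤ a i`,
`|A i'| ≤ κ a i`, a `C¹` compactly supported weight `W ≥ 0` and arbitrary pointwise gauges `N i`:
`∫ W |∑ A i e(s i x)|⁴ ≤ ∫ W (∑ N i)^(2-ε) ∑ |A i|⁴ / N i ^(2-ε) + ρ⁻¹ ∫ (|W'| + 4 κ W) (∑ a i)⁴`.
Only ONE integration by parts.
-/

open MeasureTheory Finset

namespace Vale.Agent.P112.H686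

open Vale.Agent.P112.H22

set_option linter.unusedSectionVars false
set_option linter.unusedVariables false

/-- phase `e^{it}` -/
noncomputable def ee (t : ℝ) : ℂ := Complex.exp ((t : ℂ) * Complex.I)

lemma norm_ee (t : ℝ) : ‖ee t‖ = 1 := Complex.norm_exp_ofReal_mul_I t

lemma ee_add (t u : ℝ) : ee (t + u) = ee t * ee u := by
  unfold ee; rw [← Complex.exp_add]; congr 1; push_cast; ring

lemma conj_ee (t : ℝ) : (starRingEnd ℂ) (ee t) = ee (-t) := by
  unfold ee
  rw [← Complex.exp_conj]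
  congr 1
  simp

lemma hasDerivAt_ee (τ x : ℝ) :
    HasDerivAt (fun x : ℝ => ee (τ * x)) (((τ : ℂ) * Complex.I) * ee (τ * x)) x := by
  unfold ee
  have h1 : HasDerivAt (fun x : ℝ => (((τ * x : ℝ) : ℂ) * Complex.I)) ((τ : ℂ) * Complex.I) x := by
    have h2 : HasDerivAt (fun x : ℝ => ((τ * x : ℝ) : ℂ)) (τ : ℂ) x := by
      have := ((hasDerivAt_id x).const_mul τ).ofReal_comp
      simpa using this
    exact h2.mul_const _
  have h3 := h1.cexp
  convert h3 using 1
  ring

lemma continuous_ee (τ : ℝ) : Continuous (fun x : ℝ => ee (τ * x)) :=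
  continuous_iff_continuousAt.mpr fun x => (hasDerivAt_ee τ x).continuousAt

/-- one integration by parts -/
theorem osc_le {Φ Φ' : ℝ → ℂ} (hd : ∀ x, HasDerivAt Φ (Φ' x) x) (hc : Continuous Φ')
    (hs : HasCompactSupport Φ) {τ ρ : ℝ} (hρ : 0 < ρ) (hτ : ρ ≤ |τ|) :
    ‖∫ x, Φ x * ee (τ * x)‖ ≤ (1 / ρ) * ∫ x, ‖Φ' x‖ := by
  have hτ0 : 0 < |τ| := lt_of_lt_of_le hρ hτ
  have hτne : (τ : ℂ) ≠ 0 := by
    intro h
    have : τ = 0 := by exact_mod_cast h
    rw [this, abs_zero] at hτ0
    exact lt_irrefl _ hτ0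
  have hΦc : Continuous Φ := continuous_iff_continuousAt.mpr fun x => (hd x).continuousAt
  have hΦ's : HasCompactSupport Φ' := by
    have h1 : Φ' = deriv Φ := by
      funext x; exact (hd x).deriv.symm
    rw [h1]; exact hs.deriv
  have hI1 : Integrable (fun x => Φ' x * ee (τ * x)) :=
    (hc.mul (continuous_ee τ)).integrable_of_hasCompactSupport (hΦ's.mul_right)
  have hI2 : Integrable (fun x => Φ x * (((τ : ℂ) * Complex.I) * ee (τ * x))) :=
    (hΦc.mul (continuous_const.mul (continuous_ee τ))).integrable_of_hasCompactSupport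
      (hs.mul_right)
  have hI3 : Integrable (fun x => Φ x * ee (τ * x)) :=
    (hΦc.mul (continuous_ee τ)).integrable_of_hasCompactSupport (hs.mul_right)
  have h0 : ∫ x, (Φ' x * ee (τ * x) + Φ x * (((τ : ℂ) * Complex.I) * ee (τ * x))) = 0 :=
    integral_eq_zero_of_hasDerivAt_of_integrable
      (fun x => (hd x).mul (hasDerivAt_ee τ x)) (hI1.add hI2) hI3
  rw [integral_add hI1 hI2] at h0
  have h1 : ∫ x, Φ x * (((τ : ℂ) * Complex.I) * ee (τ * x)) =
      ((τ : ℂ) * Complex.I) * ∫ x, Φ x * ee (τ * x) := by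
    rw [← integral_const_mul]
    refine integral_congr_ae (Filter.Eventually.of_forall fun x => ?_)
    show Φ x * (((τ : ℂ) * Complex.I) * ee (τ * x)) = ((τ : ℂ) * Complex.I) * (Φ x * ee (τ * x))
    ring
  rw [h1] at h0
  have h2 : ((τ : ℂ) * Complex.I) * ∫ x, Φ x * ee (τ * x) = - ∫ x, Φ' x * ee (τ * x) := by
    linear_combination h0
  have h3 : |τ| * ‖∫ x, Φ x * ee (τ * x)‖ = ‖∫ x, Φ' x * ee (τ * x)‖ := by
    have := congrArg norm h2
    rw [norm_mul, norm_neg, norm_mul, Complex.norm_I, mul_one, Complex.norm_real,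
      Real.norm_eq_abs] at this
    exact this
  have h4 : ‖∫ x, Φ' x * ee (τ * x)‖ ≤ ∫ x, ‖Φ' x‖ := by
    refine (norm_integral_le_integral_norm _).trans (le_of_eq ?_)
    refine integral_congr_ae (Filter.Eventually.of_forall fun x => ?_)
    show ‖Φ' x * ee (τ * x)‖ = ‖Φ' x‖
    rw [norm_mul, norm_ee, mul_one]
  have h5 : ρ * ‖∫ x, Φ x * ee (τ * x)‖ ≤ ∫ x, ‖Φ' x‖ :=
    (mul_le_mul_of_nonneg_right hτ (norm_nonneg _)).trans (h3.le.trans h4)
  rw [one_div, ← div_eq_inv_mul, le_div_iff₀ hρ]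
  linarith

variable {ι : Type*} [Fintype ι]

/-- product of four sums -/
lemma prod_four (f g h w : ι → ℂ) : (∑ i, f i) * (∑ j, g j) * (∑ k, h k) * (∑ l, w l) =
    ∑ i, ∑ j, ∑ k, ∑ l, f i * g j * h k * w l := by
  have h1 : ∀ i j, ∑ k, ∑ l, f i * g j * h k * w l =
      f i * g j * ((∑ k, h k) * ∑ l, w l) := by
    intro i j
    rw [Finset.sum_mul_sum, Finset.mul_sum]
    refine Finset.sum_congr rfl fun k _ => ?_
    rw [Finset.mul_sum]
    exact Finset.sum_congr rfl fun l _ => by ring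
  have h2 : ∑ i, ∑ j, ∑ k, ∑ l, f i * g j * h k * w l =
      ∑ i, ∑ j, f i * g j * ((∑ k, h k) * ∑ l, w l) :=
    Finset.sum_congr rfl fun i _ => Finset.sum_congr rfl fun j _ => h1 i j
  rw [h2, mul_assoc, Finset.sum_mul_sum, Finset.sum_mul]
  exact Finset.sum_congr rfl fun i _ => by rw [Finset.sum_mul]

lemma prod_four_real (f g h w : ι → ℝ) : (∑ i, f i) * (∑ j, g j) * (∑ k, h k) * (∑ l, w l) =
    ∑ i, ∑ j, ∑ k, ∑ l, f i * g j * h k * w l := by
  have h1 : ∀ i j, ∑ k, ∑ l, f i * g j * h k * w l =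
      f i * g j * ((∑ k, h k) * ∑ l, w l) := by
    intro i j
    rw [Finset.sum_mul_sum, Finset.mul_sum]
    refine Finset.sum_congr rfl fun k _ => ?_
    rw [Finset.mul_sum]
    exact Finset.sum_congr rfl fun l _ => by ring
  have h2 : ∑ i, ∑ j, ∑ k, ∑ l, f i * g j * h k * w l =
      ∑ i, ∑ j, f i * g j * ((∑ k, h k) * ∑ l, w l) :=
    Finset.sum_congr rfl fun i _ => Finset.sum_congr rfl fun j _ => h1 i j
  rw [h2, mul_assoc, Finset.sum_mul_sum, Finset.sum_mul]
  exact Finset.sum_congr rfl fun i _ => by rw [Finset.sum_mul]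

/-- expansion of the fourth power -/
lemma pow_four_expand (A : ι → ℂ) (s : ι → ℝ) (x : ℝ) :
    ((‖∑ i, A i * ee (s i * x)‖ ^ 4 : ℝ) : ℂ) =
      ∑ i, ∑ j, ∑ k, ∑ l, (A i * A j * (starRingEnd ℂ) (A k) * (starRingEnd ℂ) (A l)) *
        ee ((s i + s j - s k - s l) * x) := by
  set G : ℂ := ∑ i, A i * ee (s i * x) with hG
  have hcG : (starRingEnd ℂ) G = ∑ k, (starRingEnd ℂ) (A k) * ee (-(s k * x)) := by
    rw [hG, map_sum]
    refine Finset.sum_congr rfl fun k _ => ?_
    rw [map_mul, conj_ee]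
  have h1 : ((‖G‖ ^ 4 : ℝ) : ℂ) = G * G * (starRingEnd ℂ) G * (starRingEnd ℂ) G := by
    have h2 : ((‖G‖ ^ 2 : ℝ) : ℂ) = G * (starRingEnd ℂ) G := by
      rw [Complex.mul_conj, Complex.normSq_eq_norm_sq]
    have h3 : ((‖G‖ ^ 4 : ℝ) : ℂ) = ((‖G‖ ^ 2 : ℝ) : ℂ) * ((‖G‖ ^ 2 : ℝ) : ℂ) := by
      push_cast; ring
    rw [h3, h2]; ring
  rw [h1, hcG, hG, prod_four]
  refine Finset.sum_congr rfl fun i _ => Finset.sum_congr rfl fun j _ =>
    Finset.sum_congr rfl fun k _ => Finset.sum_congr rfl fun l _ => ?_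
  have e : (s i + s j - s k - s l) * x = s i * x + s j * x + -(s k * x) + -(s l * x) := by ring
  rw [e, ee_add, ee_add, ee_add]
  ring

/-- The local weighted `L⁴` block inequality, explicit form. -/
theorem block_le {s : ι → ℝ} {ρ : ℝ} (hs : Sep s ρ) (hρ : 0 < ρ) {c ε : ℝ} (hc : 0 < c)
    (hc1 : c ≤ (1 / 160000 : ℝ) ^ 3 / 300) (hε : 0 ≤ ε)
    (hε' : ε ≤ c / Real.log (Fintype.card ι + 2))
    (A A' : ι → ℝ → ℂ) (hA : ∀ i x, HasDerivAt (A i) (A' i x) x) (hA' : ∀ i, Continuous (A' i))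
    (W W' : ℝ → ℝ) (hW : ∀ x, HasDerivAt W (W' x) x) (hW' : Continuous W')
    (hW0 : ∀ x, 0 ≤ W x) (hWc : HasCompactSupport W)
    (N : ι → ℝ → ℝ) (hN : ∀ i, ∀ x ∈ tsupport W, 0 ≤ N i x)
    (hNA : ∀ i, ∀ x ∈ tsupport W, N i x = 0 → A i x = 0)
    (a : ι → ℝ → ℝ) (κ : ℝ) (hκ : 0 ≤ κ) (ha : ∀ i, ∀ x ∈ tsupport W, ‖A i x‖ ≤ a i x)
    (ha' : ∀ i, ∀ x ∈ tsupport W, ‖A' i x‖ ≤ κ * a i x)
    (hI1 : Integrable (fun x => W x * ((∑ i, N i x) ^ (2 - ε) *
      ∑ i, ‖A i x‖ ^ 4 / N i x ^ (2 - ε))))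
    (hI2 : Integrable (fun x => (|W' x| + 4 * κ * W x) * (∑ i, a i x) ^ 4)) :
    ∫ x, W x * ‖∑ i, A i x * ee (s i * x)‖ ^ 4 ≤
      (∫ x, W x * ((∑ i, N i x) ^ (2 - ε) * ∑ i, ‖A i x‖ ^ 4 / N i x ^ (2 - ε))) +
      (1 / ρ) * ∫ x, (|W' x| + 4 * κ * W x) * (∑ i, a i x) ^ 4 := by
  classical
  have hAc : ∀ i, Continuous (A i) := fun i =>
    continuous_iff_continuousAt.mpr fun x => (hA i x).continuousAt
  have hWcont : Continuous W := continuous_iff_continuousAt.mpr fun x => (hW x).continuousAt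
  have hcc : ∀ i, Continuous (fun x => (starRingEnd ℂ) (A i x)) := fun i =>
    Complex.continuous_conj.comp (hAc i)
  have hcc' : ∀ i, Continuous (fun x => (starRingEnd ℂ) (A' i x)) := fun i =>
    Complex.continuous_conj.comp (hA' i)
  have hcd : ∀ i x, HasDerivAt (fun x => (starRingEnd ℂ) (A i x)) ((starRingEnd ℂ) (A' i x)) x :=
    fun i x => (hA i x).star
  -- the four-fold products
  let P : ι → ι → ι → ι → ℝ → ℂ := fun i j k l x =>
    (W x : ℂ) * A i x * A j x * (starRingEnd ℂ) (A k x) * (starRingEnd ℂ) (A l x)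
  let P' : ι → ι → ι → ι → ℝ → ℂ := fun i j k l x =>
    (((W' x : ℂ) * A i x + (W x : ℂ) * A' i x) * A j x + ((W x : ℂ) * A i x) * A' j x) *
        (starRingEnd ℂ) (A k x) * (starRingEnd ℂ) (A l x) +
      ((W x : ℂ) * A i x * A j x) * (starRingEnd ℂ) (A' k x) * (starRingEnd ℂ) (A l x) +
      ((W x : ℂ) * A i x * A j x * (starRingEnd ℂ) (A k x)) * (starRingEnd ℂ) (A' l x)
  have hWC : Continuous (fun x => (W x : ℂ)) := Complex.continuous_ofReal.comp hWcont
  have hWC' : Continuous (fun x => (W' x : ℂ)) := Complex.continuous_ofReal.comp hW'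
  have hPc : ∀ i j k l, Continuous (P i j k l) := fun i j k l =>
    ((((hWC.mul (hAc i)).mul (hAc j)).mul (hcc k)).mul (hcc l))
  have hP'c : ∀ i j k l, Continuous (P' i j k l) := fun i j k l =>
    (((((((hWC'.mul (hAc i)).add (hWC.mul (hA' i))).mul (hAc j)).add
      ((hWC.mul (hAc i)).mul (hA' j))).mul (hcc k)).mul (hcc l)).add
      ((((hWC.mul (hAc i)).mul (hAc j)).mul (hcc' k)).mul (hcc l))).add
      ((((hWC.mul (hAc i)).mul (hAc j)).mul (hcc k)).mul (hcc' l))
  have hPd : ∀ i j k l x, HasDerivAt (P i j k l) (P' i j k l x) x := by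
    intro i j k l x
    have h0 : HasDerivAt (fun x => (W x : ℂ)) (W' x : ℂ) x := (hW x).ofReal_comp
    have h1 := ((((h0.mul (hA i x)).mul (hA j x)).mul (hcd k x)).mul (hcd l x))
    have h2 : P' i j k l x = ((((W' x : ℂ) * A i x + (W x : ℂ) * A' i x) * A j x +
        ((W x : ℂ) * A i x) * A' j x) * (starRingEnd ℂ) (A k x) +
        ((W x : ℂ) * A i x * A j x) * (starRingEnd ℂ) (A' k x)) * (starRingEnd ℂ) (A l x) +
        ((W x : ℂ) * A i x * A j x * (starRingEnd ℂ) (A k x)) * (starRingEnd ℂ) (A' l x) := by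
      show (((W' x : ℂ) * A i x + (W x : ℂ) * A' i x) * A j x + ((W x : ℂ) * A i x) * A' j x) *
        (starRingEnd ℂ) (A k x) * (starRingEnd ℂ) (A l x) +
        ((W x : ℂ) * A i x * A j x) * (starRingEnd ℂ) (A' k x) * (starRingEnd ℂ) (A l x) +
        ((W x : ℂ) * A i x * A j x * (starRingEnd ℂ) (A k x)) * (starRingEnd ℂ) (A' l x) = _
      ring
    rw [h2]
    exact h1
  have hPs : ∀ i j k l, HasCompactSupport (P i j k l) := by
    intro i j k l
    have h0 : HasCompactSupport (fun x => (W x : ℂ)) :=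
      hWc.comp_left (g := fun t : ℝ => (t : ℂ)) Complex.ofReal_zero
    exact ((h0.mul_right.mul_right).mul_right).mul_right
  have hPI : ∀ i j k l, Integrable (P i j k l) := fun i j k l =>
    (hPc i j k l).integrable_of_hasCompactSupport (hPs i j k l)
  have hP's : ∀ i j k l, HasCompactSupport (P' i j k l) := by
    intro i j k l
    have h1 : P' i j k l = deriv (P i j k l) := by
      funext x; exact (hPd i j k l x).deriv.symm
    rw [h1]; exact (hPs i j k l).deriv
  have hP'I : ∀ i j k l, Integrable (P' i j k l) := fun i j k l =>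
    (hP'c i j k l).integrable_of_hasCompactSupport (hP's i j k l)
  -- bound for the derivative
  have hP'b : ∀ i j k l x, ‖P' i j k l x‖ ≤
      (|W' x| + 4 * κ * W x) * (a i x * a j x * a k x * a l x) := by
    intro i j k l x
    by_cases hx : x ∈ tsupport W
    · have nc : ∀ z : ℂ, ‖(starRingEnd ℂ) z‖ = ‖z‖ := fun z => RCLike.norm_conj z
      have hWn : ‖(W x : ℂ)‖ = W x := by
        rw [Complex.norm_real, Real.norm_eq_abs, abs_of_nonneg (hW0 x)]
      have hWn' : ‖(W' x : ℂ)‖ = |W' x| := by rw [Complex.norm_real, Real.norm_eq_abs]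
      have h1 : ∀ m, 0 ≤ a m x := fun m => (norm_nonneg _).trans (ha m x hx)
      have b0 : ‖(W' x : ℂ) * A i x * A j x * (starRingEnd ℂ) (A k x) * (starRingEnd ℂ) (A l x)‖
          ≤ |W' x| * (a i x * a j x * a k x * a l x) := by
        rw [norm_mul, norm_mul, norm_mul, norm_mul, nc, nc, hWn']
        have e : |W' x| * (a i x * a j x * a k x * a l x) =
          |W' x| * a i x * a j x * a k x * a l x := by ring
        rw [e]
        have := ha i x hx; have := ha j x hx; have := ha k x hx; have := ha l x hx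
        have := h1 i; have := h1 j; have := h1 k; have := h1 l
        gcongr
      have bi : ∀ (u1 u2 u3 u4 : ℂ) (c1 c2 c3 c4 : ℝ), ‖u1‖ ≤ c1 → ‖u2‖ ≤ c2 → ‖u3‖ ≤ c3 →
          ‖u4‖ ≤ c4 → ‖(W x : ℂ) * u1 * u2 * u3 * u4‖ ≤ W x * (c1 * c2 * c3 * c4) := by
        intro u1 u2 u3 u4 c1 c2 c3 c4 e1 e2 e3 e4
        rw [norm_mul, norm_mul, norm_mul, norm_mul, hWn]
        have e : W x * (c1 * c2 * c3 * c4) = W x * c1 * c2 * c3 * c4 := by ring
        rw [e]
        have q1 := (norm_nonneg u1).trans e1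
        have q2 := (norm_nonneg u2).trans e2
        have q3 := (norm_nonneg u3).trans e3
        have q4 := (norm_nonneg u4).trans e4
        have := hW0 x
        gcongr
      have e0 : P' i j k l x =
          (W' x : ℂ) * A i x * A j x * (starRingEnd ℂ) (A k x) * (starRingEnd ℂ) (A l x) +
          (W x : ℂ) * A' i x * A j x * (starRingEnd ℂ) (A k x) * (starRingEnd ℂ) (A l x) +
          (W x : ℂ) * A i x * A' j x * (starRingEnd ℂ) (A k x) * (starRingEnd ℂ) (A l x) +
          (W x : ℂ) * A i x * A j x * (starRingEnd ℂ) (A' k x) * (starRingEnd ℂ) (A l x) +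
          (W x : ℂ) * A i x * A j x * (starRingEnd ℂ) (A k x) * (starRingEnd ℂ) (A' l x) := by
        show (((W' x : ℂ) * A i x + (W x : ℂ) * A' i x) * A j x + ((W x : ℂ) * A i x) * A' j x) *
          (starRingEnd ℂ) (A k x) * (starRingEnd ℂ) (A l x) +
          ((W x : ℂ) * A i x * A j x) * (starRingEnd ℂ) (A' k x) * (starRingEnd ℂ) (A l x) +
          ((W x : ℂ) * A i x * A j x * (starRingEnd ℂ) (A k x)) * (starRingEnd ℂ) (A' l x) = _
        ring
      have b1 := bi (A' i x) (A j x) ((starRingEnd ℂ) (A k x)) ((starRingEnd ℂ) (A l x))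
        _ _ _ _ (ha' i x hx) (ha j x hx) ((nc _).le.trans (ha k x hx))
        ((nc _).le.trans (ha l x hx))
      have b2 := bi (A i x) (A' j x) ((starRingEnd ℂ) (A k x)) ((starRingEnd ℂ) (A l x))
        _ _ _ _ (ha i x hx) (ha' j x hx) ((nc _).le.trans (ha k x hx))
        ((nc _).le.trans (ha l x hx))
      have b3 := bi (A i x) (A j x) ((starRingEnd ℂ) (A' k x)) ((starRingEnd ℂ) (A l x))
        _ _ _ _ (ha i x hx) (ha j x hx) ((nc _).le.trans (ha' k x hx))
        ((nc _).le.trans (ha l x hx))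
      have b4 := bi (A i x) (A j x) ((starRingEnd ℂ) (A k x)) ((starRingEnd ℂ) (A' l x))
        _ _ _ _ (ha i x hx) (ha j x hx) ((nc _).le.trans (ha k x hx))
        ((nc _).le.trans (ha' l x hx))
      rw [e0]
      refine (norm_add_le _ _).trans ((add_le_add ((norm_add_le _ _).trans (add_le_add
        ((norm_add_le _ _).trans (add_le_add ((norm_add_le _ _).trans (add_le_add b0 b1)) b2))
        b3)) b4).trans (le_of_eq ?_))
      ring
    · have hW0' : W x = 0 := image_eq_zero_of_notMem_tsupport hx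
      have hW1 : W' x = 0 := by
        have : W' x = deriv W x := (hW x).deriv.symm
        rw [this]
        have h3 : W =ᶠ[nhds x] 0 := notMem_tsupport_iff_eventuallyEq.mp hx
        rw [h3.deriv_eq]; simp
      have e0 : P' i j k l x = 0 := by
        show (((W' x : ℂ) * A i x + (W x : ℂ) * A' i x) * A j x + ((W x : ℂ) * A i x) * A' j x) *
          (starRingEnd ℂ) (A k x) * (starRingEnd ℂ) (A l x) +
          ((W x : ℂ) * A i x * A j x) * (starRingEnd ℂ) (A' k x) * (starRingEnd ℂ) (A l x) +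
          ((W x : ℂ) * A i x * A j x * (starRingEnd ℂ) (A k x)) * (starRingEnd ℂ) (A' l x) = _
        rw [hW0', hW1]; simp
      rw [e0, hW0', hW1]; simp
  -- the expansion under the integral
  have hexp : ((∫ x, W x * ‖∑ i, A i x * ee (s i * x)‖ ^ 4 : ℝ) : ℂ) =
      ∑ i, ∑ j, ∑ k, ∑ l, ∫ x, P i j k l x * ee ((s i + s j - s k - s l) * x) := by
    have hint : ∀ i j k l, Integrable
        (fun x => P i j k l x * ee ((s i + s j - s k - s l) * x)) := fun i j k l =>
      ((hPc i j k l).mul (continuous_ee _)).integrable_of_hasCompactSupport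
        ((hPs i j k l).mul_right)
    rw [← integral_complex_ofReal]
    have e1 : ∀ x, ((W x * ‖∑ i, A i x * ee (s i * x)‖ ^ 4 : ℝ) : ℂ) =
        ∑ i, ∑ j, ∑ k, ∑ l, P i j k l x * ee ((s i + s j - s k - s l) * x) := by
      intro x
      rw [Complex.ofReal_mul, pow_four_expand (fun i => A i x) s x, Finset.mul_sum]
      refine Finset.sum_congr rfl fun i _ => ?_
      rw [Finset.mul_sum]
      refine Finset.sum_congr rfl fun j _ => ?_
      rw [Finset.mul_sum]
      refine Finset.sum_congr rfl fun k _ => ?_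
      rw [Finset.mul_sum]
      refine Finset.sum_congr rfl fun l _ => ?_
      show _ = (W x : ℂ) * A i x * A j x * (starRingEnd ℂ) (A k x) * (starRingEnd ℂ) (A l x) * _
      ring
    rw [integral_congr_ae (Filter.Eventually.of_forall e1)]
    rw [integral_finsetSum _ fun i _ => integrable_finsetSum _ fun j _ =>
      integrable_finsetSum _ fun k _ => integrable_finsetSum _ fun l _ => hint i j k l]
    refine Finset.sum_congr rfl fun i _ => ?_
    rw [integral_finsetSum _ fun j _ =>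
      integrable_finsetSum _ fun k _ => integrable_finsetSum _ fun l _ => hint i j k l]
    refine Finset.sum_congr rfl fun j _ => ?_
    rw [integral_finsetSum _ fun k _ => integrable_finsetSum _ fun l _ => hint i j k l]
    refine Finset.sum_congr rfl fun k _ => ?_
    rw [integral_finsetSum _ fun l _ => hint i j k l]
  -- resonant and nonresonant terms
  have hterm : ∀ i j k l, ‖∫ x, P i j k l x * ee ((s i + s j - s k - s l) * x)‖ ≤
      (if Rel s ρ i j k l then ∫ x, ‖P i j k l x‖ else 0) + (1 / ρ) * ∫ x, ‖P' i j k l x‖ := by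
    intro i j k l
    have h0 : 0 ≤ (1 / ρ) * ∫ x, ‖P' i j k l x‖ :=
      mul_nonneg (by positivity) (integral_nonneg fun x => norm_nonneg _)
    by_cases hR : Rel s ρ i j k l
    · rw [if_pos hR]
      have h1 : ‖∫ x, P i j k l x * ee ((s i + s j - s k - s l) * x)‖ ≤ ∫ x, ‖P i j k l x‖ := by
        refine (norm_integral_le_integral_norm _).trans (le_of_eq ?_)
        refine integral_congr_ae (Filter.Eventually.of_forall fun x => ?_)
        show ‖P i j k l x * ee ((s i + s j - s k - s l) * x)‖ = ‖P i j k l x‖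
        rw [norm_mul, norm_ee, mul_one]
      linarith
    · rw [if_neg hR, zero_add]
      refine osc_le (hPd i j k l) (hP'c i j k l) (hPs i j k l) hρ ?_
      have : ¬ |s i + s j - s k - s l| ≤ ρ := hR
      linarith [not_le.mp this]
  have hnn : 0 ≤ ∫ x, W x * ‖∑ i, A i x * ee (s i * x)‖ ^ 4 :=
    integral_nonneg fun x => mul_nonneg (hW0 x) (by positivity)
  have hmain : (∫ x, W x * ‖∑ i, A i x * ee (s i * x)‖ ^ 4) ≤
      ∑ i, ∑ j, ∑ k, ∑ l, ((if Rel s ρ i j k l then ∫ x, ‖P i j k l x‖ else 0) +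
        (1 / ρ) * ∫ x, ‖P' i j k l x‖) := by
    have h1 : (∫ x, W x * ‖∑ i, A i x * ee (s i * x)‖ ^ 4) =
        ‖((∫ x, W x * ‖∑ i, A i x * ee (s i * x)‖ ^ 4 : ℝ) : ℂ)‖ := by
      rw [Complex.norm_real, Real.norm_eq_abs, abs_of_nonneg hnn]
    rw [h1, hexp]
    refine (norm_sum_le _ _).trans (Finset.sum_le_sum fun i _ => ?_)
    refine (norm_sum_le _ _).trans (Finset.sum_le_sum fun j _ => ?_)
    refine (norm_sum_le _ _).trans (Finset.sum_le_sum fun k _ => ?_)
    exact (norm_sum_le _ _).trans (Finset.sum_le_sum fun l _ => hterm i j k l)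
  refine hmain.trans ?_
  have hsplit : ∑ i, ∑ j, ∑ k, ∑ l, ((if Rel s ρ i j k l then ∫ x, ‖P i j k l x‖ else 0) +
        (1 / ρ) * ∫ x, ‖P' i j k l x‖) =
      (∑ i, ∑ j, ∑ k, ∑ l, (if Rel s ρ i j k l then ∫ x, ‖P i j k l x‖ else 0)) +
      ∑ i, ∑ j, ∑ k, ∑ l, (1 / ρ) * ∫ x, ‖P' i j k l x‖ := by
    simp only [Finset.sum_add_distrib]
  rw [hsplit]
  refine add_le_add ?_ ?_
  · -- resonant part
    have e1 : ∑ i, ∑ j, ∑ k, ∑ l, (if Rel s ρ i j k l then ∫ x, ‖P i j k l x‖ else 0) =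
        ∫ x, ∑ i, ∑ j, ∑ k, ∑ l, (if Rel s ρ i j k l then ‖P i j k l x‖ else 0) := by
      have hint : ∀ i j k l, Integrable
          (fun x => if Rel s ρ i j k l then ‖P i j k l x‖ else 0) := by
        intro i j k l
        by_cases hR : Rel s ρ i j k l
        · simp only [if_pos hR]; exact (hPI i j k l).norm
        · simp only [if_neg hR]; exact integrable_zero _ _ _
      rw [integral_finsetSum _ fun i _ => integrable_finsetSum _ fun j _ =>
        integrable_finsetSum _ fun k _ => integrable_finsetSum _ fun l _ => hint i j k l]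
      refine Finset.sum_congr rfl fun i _ => ?_
      rw [integral_finsetSum _ fun j _ =>
        integrable_finsetSum _ fun k _ => integrable_finsetSum _ fun l _ => hint i j k l]
      refine Finset.sum_congr rfl fun j _ => ?_
      rw [integral_finsetSum _ fun k _ => integrable_finsetSum _ fun l _ => hint i j k l]
      refine Finset.sum_congr rfl fun k _ => ?_
      rw [integral_finsetSum _ fun l _ => hint i j k l]
      refine Finset.sum_congr rfl fun l _ => ?_
      by_cases hR : Rel s ρ i j k l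
      · simp only [if_pos hR]
      · simp only [if_neg hR, integral_zero]
    rw [e1]
    refine integral_mono_of_nonneg (Filter.Eventually.of_forall fun x => ?_) hI1
      (Filter.Eventually.of_forall fun x => ?_)
    · refine Finset.sum_nonneg fun i _ => Finset.sum_nonneg fun j _ =>
        Finset.sum_nonneg fun k _ => Finset.sum_nonneg fun l _ => ?_
      split_ifs
      · exact norm_nonneg _
      · exact le_rfl
    · show ∑ i, ∑ j, ∑ k, ∑ l, (if Rel s ρ i j k l then ‖P i j k l x‖ else 0) ≤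
        W x * ((∑ i, N i x) ^ (2 - ε) * ∑ i, ‖A i x‖ ^ 4 / N i x ^ (2 - ε))
      have hPn : ∀ i j k l, ‖P i j k l x‖ = W x * (‖A i x‖ * ‖A j x‖ * ‖A k x‖ * ‖A l x‖) := by
        intro i j k l
        show ‖(W x : ℂ) * A i x * A j x * (starRingEnd ℂ) (A k x) * (starRingEnd ℂ) (A l x)‖ = _
        rw [norm_mul, norm_mul, norm_mul, norm_mul, RCLike.norm_conj, RCLike.norm_conj,
          Complex.norm_real, Real.norm_eq_abs, abs_of_nonneg (hW0 x)]
        ring
      have e2 : ∑ i, ∑ j, ∑ k, ∑ l, (if Rel s ρ i j k l then ‖P i j k l x‖ else 0) =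
          W x * Q4 s ρ (fun i => ‖A i x‖) (fun i => ‖A i x‖) (fun i => ‖A i x‖)
            (fun i => ‖A i x‖) := by
        unfold Q4
        rw [Finset.mul_sum]
        refine Finset.sum_congr rfl fun i _ => ?_
        rw [Finset.mul_sum]
        refine Finset.sum_congr rfl fun j _ => ?_
        rw [Finset.mul_sum]
        refine Finset.sum_congr rfl fun k _ => ?_
        rw [Finset.mul_sum]
        refine Finset.sum_congr rfl fun l _ => ?_
        by_cases hR : Rel s ρ i j k l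
        · rw [if_pos hR, if_pos hR, hPn]
        · rw [if_neg hR, if_neg hR, mul_zero]
      rw [e2]
      by_cases hx : x ∈ tsupport W
      · exact mul_le_mul_of_nonneg_left (improved_young_weights_Q4 hs (fun i => ‖A i x‖)
          (fun i => N i x) (fun i => norm_nonneg _) (fun i => hN i x hx)
          (fun i h => by rw [hNA i x hx h, norm_zero]) hc hc1 hε hε') (hW0 x)
      · rw [image_eq_zero_of_notMem_tsupport hx, zero_mul, zero_mul]
  · -- nonresonant part
    have e1 : ∑ i, ∑ j, ∑ k, ∑ l, (1 / ρ) * ∫ x, ‖P' i j k l x‖ =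
        (1 / ρ) * ∫ x, ∑ i, ∑ j, ∑ k, ∑ l, ‖P' i j k l x‖ := by
      rw [integral_finsetSum _ fun i _ => integrable_finsetSum _ fun j _ =>
        integrable_finsetSum _ fun k _ => integrable_finsetSum _ fun l _ =>
        (hP'I i j k l).norm, Finset.mul_sum]
      refine Finset.sum_congr rfl fun i _ => ?_
      rw [integral_finsetSum _ fun j _ =>
        integrable_finsetSum _ fun k _ => integrable_finsetSum _ fun l _ =>
        (hP'I i j k l).norm, Finset.mul_sum]
      refine Finset.sum_congr rfl fun j _ => ?_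
      rw [integral_finsetSum _ fun k _ => integrable_finsetSum _ fun l _ =>
        (hP'I i j k l).norm, Finset.mul_sum]
      refine Finset.sum_congr rfl fun k _ => ?_
      rw [integral_finsetSum _ fun l _ => (hP'I i j k l).norm, Finset.mul_sum]
    rw [e1]
    refine mul_le_mul_of_nonneg_left ?_ (by positivity)
    refine integral_mono_of_nonneg (Filter.Eventually.of_forall fun x => ?_) hI2
      (Filter.Eventually.of_forall fun x => ?_)
    · exact Finset.sum_nonneg fun i _ => Finset.sum_nonneg fun j _ =>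
        Finset.sum_nonneg fun k _ => Finset.sum_nonneg fun l _ => norm_nonneg _
    · show ∑ i, ∑ j, ∑ k, ∑ l, ‖P' i j k l x‖ ≤ (|W' x| + 4 * κ * W x) * (∑ i, a i x) ^ 4
      have e2 : (∑ i, a i x) ^ 4 = ∑ i, ∑ j, ∑ k, ∑ l, a i x * a j x * a k x * a l x := by
        rw [← prod_four_real]; ring
      rw [e2, Finset.mul_sum]
      refine Finset.sum_le_sum fun i _ => ?_
      rw [Finset.mul_sum]
      refine Finset.sum_le_sum fun j _ => ?_
      rw [Finset.mul_sum]
      refine Finset.sum_le_sum fun k _ => ?_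
      rw [Finset.mul_sum]
      exact Finset.sum_le_sum fun l _ => hP'b i j k l x

/-- the absolute constant of the block inequality -/
noncomputable def cB : ℝ := (1 / 160000 : ℝ) ^ 3 / 300

lemma cB_pos : 0 < cB := by unfold cB; norm_num

/-- `ENNReal` form of the block inequality (no integrability hypotheses). -/
theorem block_lintegral_le {s : ι → ℝ} {ρ : ℝ} (hs : Sep s ρ) (hρ : 0 < ρ) {ε : ℝ}
    (hε : 0 ≤ ε) (hε' : ε ≤ cB / Real.log (Fintype.card ι + 2))
    (A A' : ι → ℝ → ℂ) (hA : ∀ i x, HasDerivAt (A i) (A' i x) x) (hA' : ∀ i, Continuous (A' i))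
    (W W' : ℝ → ℝ) (hW : ∀ x, HasDerivAt W (W' x) x) (hW' : Continuous W')
    (hW0 : ∀ x, 0 ≤ W x) (hWc : HasCompactSupport W)
    (N : ι → ℝ → ℝ) (hNm : ∀ i, Measurable (N i)) (hN : ∀ i, ∀ x ∈ tsupport W, 0 ≤ N i x)
    (hNA : ∀ i, ∀ x ∈ tsupport W, N i x = 0 → A i x = 0)
    (a : ι → ℝ → ℝ) (ham : ∀ i, Measurable (a i)) (κ : ℝ) (hκ : 0 ≤ κ)
    (ha : ∀ i, ∀ x ∈ tsupport W, ‖A i x‖ ≤ a i x)
    (ha' : ∀ i, ∀ x ∈ tsupport W, ‖A' i x‖ ≤ κ * a i x) :
    ∫⁻ x, ENNReal.ofReal (W x * ‖∑ i, A i x * ee (s i * x)‖ ^ 4) ≤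
      (∫⁻ x, ENNReal.ofReal (W x * ((∑ i, N i x) ^ (2 - ε) *
        ∑ i, ‖A i x‖ ^ 4 / N i x ^ (2 - ε)))) +
      ENNReal.ofReal (1 / ρ) *
        ∫⁻ x, ENNReal.ofReal ((|W' x| + 4 * κ * W x) * (∑ i, a i x) ^ 4) := by
  have hAc : ∀ i, Continuous (A i) := fun i =>
    continuous_iff_continuousAt.mpr fun x => (hA i x).continuousAt
  have hWcont : Continuous W := continuous_iff_continuousAt.mpr fun x => (hW x).continuousAt
  set R1 : ℝ → ℝ := fun x => W x * ((∑ i, N i x) ^ (2 - ε) * ∑ i, ‖A i x‖ ^ 4 / N i x ^ (2 - ε))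
    with hR1
  set R2 : ℝ → ℝ := fun x => (|W' x| + 4 * κ * W x) * (∑ i, a i x) ^ 4 with hR2
  have hm1 : Measurable R1 := by
    refine hWcont.measurable.mul (((Finset.measurable_sum _ fun i _ => hNm i).pow_const _).mul
      (Finset.measurable_sum _ fun i _ => ?_))
    exact ((hAc i).norm.measurable.pow_const 4).div ((hNm i).pow_const _)
  have hm2 : Measurable R2 :=
    ((continuous_abs.comp hW').measurable.add (hWcont.measurable.const_mul (4 * κ))).mul
      ((Finset.measurable_sum _ fun i _ => ham i).pow_const 4)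
  have hn1 : ∀ x, 0 ≤ R1 x := by
    intro x
    by_cases hx : x ∈ tsupport W
    · refine mul_nonneg (hW0 x) (mul_nonneg (Real.rpow_nonneg
        (Finset.sum_nonneg fun i _ => hN i x hx) _) (Finset.sum_nonneg fun i _ => ?_))
      exact div_nonneg (by positivity) (Real.rpow_nonneg (hN i x hx) _)
    · simp only [hR1]; rw [image_eq_zero_of_notMem_tsupport hx, zero_mul]
  have hn2 : ∀ x, 0 ≤ R2 x := fun x =>
    mul_nonneg (add_nonneg (abs_nonneg _) (mul_nonneg (by positivity) (hW0 x))) (by positivity)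
  by_cases hf1 : ∫⁻ x, ENNReal.ofReal (R1 x) = ⊤
  · rw [hf1, top_add]; exact le_top
  by_cases hf2 : ∫⁻ x, ENNReal.ofReal (R2 x) = ⊤
  · rw [hf2, ENNReal.mul_top (by simpa using hρ), add_top]; exact le_top
  have hI1 : Integrable R1 := by
    refine ⟨hm1.aestronglyMeasurable, ?_⟩
    rw [hasFiniteIntegral_iff_ofReal (Filter.Eventually.of_forall hn1)]
    exact lt_top_iff_ne_top.mpr hf1
  have hI2 : Integrable R2 := by
    refine ⟨hm2.aestronglyMeasurable, ?_⟩
    rw [hasFiniteIntegral_iff_ofReal (Filter.Eventually.of_forall hn2)]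
    exact lt_top_iff_ne_top.mpr hf2
  have hmain := block_le hs hρ cB_pos (le_refl cB) hε hε' A A' hA hA' W W' hW hW' hW0 hWc N hN hNA
    a κ hκ ha ha' hI1 hI2
  have hI0 : Integrable (fun x => W x * ‖∑ i, A i x * ee (s i * x)‖ ^ 4) :=
    (hWcont.mul (((continuous_finsetSum _ fun i _ => (hAc i).mul
      (continuous_ee (s i))).norm).pow 4)).integrable_of_hasCompactSupport hWc.mul_right
  rw [← ofReal_integral_eq_lintegral_ofReal hI0 (Filter.Eventually.of_forall fun x =>
      mul_nonneg (hW0 x) (by positivity)),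
    ← ofReal_integral_eq_lintegral_ofReal hI1 (Filter.Eventually.of_forall hn1),
    ← ofReal_integral_eq_lintegral_ofReal hI2 (Filter.Eventually.of_forall hn2),
    ← ENNReal.ofReal_mul (by positivity), ← ENNReal.ofReal_add (integral_nonneg hn1)
      (mul_nonneg (by positivity) (integral_nonneg hn2))]
  exact ENNReal.ofReal_le_ofReal hmain

end Vale.Agent.P112.H686
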